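import Mathlib

/-!
A numeric lemma on natural numbers used for P160 (rare values, linear range): a factorial
dominates `(2 ^ n * (2 * n ^ (1/4) + 1) ^ n) ^ 2 * 2 ^ (7 * n)`.
-/

namespace Vale.Agent.Lib.P160.H78

/-- For `n ≥ 2 ^ 2400` the ceiling of `40 n / logb 2 n` is at most `n / 60 + 1`. -/
theorem ceil_bound (n : ℕ) (hn : 2 ^ 2400 ≤ n) :
    60 * ⌈40 * (n : ℝ) / Real.logb 2 (n : ℝ)⌉₊ ≤ n + 59 := by
  have hnpos0 : 0 < n := lt_of_lt_of_le (by positivity) hn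
  have hnpos : (0 : ℝ) < n := by exact_mod_cast hnpos0
  have hlog : (2400 : ℝ) ≤ Real.logb 2 (n : ℝ) := by
    rw [Real.le_logb_iff_rpow_le one_lt_two hnpos]
    have h1 : ((2 : ℝ) ^ (2400 : ℝ)) = (2 : ℝ) ^ (2400 : ℕ) := by
      rw [← Real.rpow_natCast]
      norm_num
    rw [h1]
    exact_mod_cast hn
  have hlpos : (0 : ℝ) < Real.logb 2 (n : ℝ) := by linarith
  have h2 : 40 * (n : ℝ) / Real.logb 2 (n : ℝ) ≤ (n : ℝ) / 60 := by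
    rw [div_le_div_iff₀ hlpos (by norm_num)]
    nlinarith
  have h3 : ((⌈40 * (n : ℝ) / Real.logb 2 (n : ℝ)⌉₊ : ℕ) : ℝ) <
      40 * (n : ℝ) / Real.logb 2 (n : ℝ) + 1 :=
    Nat.ceil_lt_add_one (by positivity)
  have h4 : (60 : ℝ) * ((⌈40 * (n : ℝ) / Real.logb 2 (n : ℝ)⌉₊ : ℕ) : ℝ) < (n : ℝ) + 60 := by
    linarith
  have h5 : 60 * ⌈40 * (n : ℝ) / Real.logb 2 (n : ℝ)⌉₊ < n + 60 := by exact_mod_cast h4
  omega

/-- The numeric lemma `rv_num2`. -/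
theorem rv_num2 : ∃ N₀ : ℕ, ∀ m n : ℕ, N₀ ≤ n → 30 * m ≤ n →
    (2 ^ n * (2 * Nat.sqrt (Nat.sqrt n) + 1) ^ n) ^ 2 * 2 ^ (7 * n) ≤
      (n - (m + (2 * Nat.sqrt (Nat.sqrt n) + 1)) -
        ⌈40 * (n : ℝ) / Real.logb 2 (n : ℝ)⌉₊).factorial := by
  refine ⟨2 ^ 2400, fun m n hn hm => ?_⟩
  have hc := ceil_bound n hn
  obtain ⟨c, hcdef⟩ : ∃ c, c = ⌈40 * (n : ℝ) / Real.logb 2 (n : ℝ)⌉₊ := ⟨_, rfl⟩
  rw [← hcdef] at hc ⊢
  obtain ⟨r, hrdef⟩ : ∃ r, r = Nat.sqrt n := ⟨_, rfl⟩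
  rw [← hrdef]
  obtain ⟨s, hsdef⟩ : ∃ s, s = Nat.sqrt r := ⟨_, rfl⟩
  rw [← hsdef]
  have hr1 : r * r ≤ n := hrdef ▸ Nat.sqrt_le n
  have hr2 : n < (r + 1) * (r + 1) := hrdef ▸ Nat.lt_succ_sqrt n
  have hs1 : s * s ≤ r := hsdef ▸ Nat.sqrt_le r
  -- `r` is huge
  have hrbig : 2 ^ 1200 ≤ r + 1 := by
    by_contra h
    rw [not_le] at h
    have h1 : (r + 1) * (r + 1) ≤ 2 ^ 1200 * 2 ^ 1200 := Nat.mul_le_mul h.le h.le
    have h2 : (2 : ℕ) ^ 1200 * 2 ^ 1200 = 2 ^ 2400 := by rw [← pow_add]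
    have h3 : n < 2 ^ 2400 := lt_of_lt_of_le hr2 (h2 ▸ h1)
    exact absurd hn (not_le.mpr h3)
  have hK44 : 100 * 4608 ^ 3 < 2 ^ 44 := by norm_num
  have hKe : ∀ e : ℕ, 44 ≤ e → 100 * 4608 ^ 3 < 2 ^ e := fun e he =>
    lt_of_lt_of_le hK44 (Nat.pow_le_pow_right (Nat.succ_pos 1) he)
  have hK : 100 * 4608 ^ 3 < 2 ^ 1200 := hKe 1200 (by decide)
  have hrK : 100 * 4608 ^ 3 ≤ r :=
    Nat.le_of_lt_succ (lt_of_lt_of_le hK hrbig)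
  have hr180 : 180 ≤ r := le_trans (by norm_num) hrK
  have hrr : r ≤ r * r := Nat.le_mul_self r
  have hs0 : 1 ≤ s := by
    rw [hsdef]
    exact Nat.sqrt_pos.mpr (by omega)
  have hsr : s ≤ r := le_trans (Nat.le_mul_self s) hs1
  have hL3 : 2 * s + 1 ≤ 3 * s := by omega
  have hLL : (2 * s + 1) * (2 * s + 1) ≤ 9 * r := by
    calc (2 * s + 1) * (2 * s + 1) ≤ (3 * s) * (3 * s) := Nat.mul_le_mul hL3 hL3
      _ = 9 * (s * s) := by ring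
      _ ≤ 9 * r := Nat.mul_le_mul_left 9 hs1
  have h180 : 180 * r ≤ r * r := Nat.mul_le_mul_right r hr180
  have hL60 : 60 * (2 * s + 1) ≤ n := by omega
  obtain ⟨a, hadef⟩ : ∃ a, a = n / 5 := ⟨_, rfl⟩
  have ha1 : 5 * a ≤ n := by omega
  have ha2 : n < 5 * a + 5 := by omega
  obtain ⟨k, hkdef⟩ : ∃ k, k = n - (m + (2 * s + 1)) - c := ⟨_, rfl⟩
  rw [← hkdef]
  have hn1000 : 1000 ≤ n := by omega
  have hak : a ≤ k := by omega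
  have he : 2 * n ≤ 3 * (k - a) := by omega
  have ha0 : 1 ≤ a := by omega
  -- base comparisons
  have hB : (2 * (2 * s + 1)) ^ 2 * 2 ^ 7 ≤ 4608 * r := by
    calc (2 * (2 * s + 1)) ^ 2 * 2 ^ 7 = 512 * ((2 * s + 1) * (2 * s + 1)) := by ring
      _ ≤ 512 * (9 * r) := Nat.mul_le_mul_left _ hLL
      _ = 4608 * r := by ring
  have h10 : r * r ≤ 10 * a := by omega
  have hXa : (4608 * r) ^ 3 ≤ a ^ 2 := by
    have h1 : 100 * (4608 * r) ^ 3 = (100 * 4608 ^ 3) * r * (r * r) := by ring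
    have h2 : (100 * 4608 ^ 3) * r * (r * r) ≤ r * r * (r * r) :=
      Nat.mul_le_mul_right _ (Nat.mul_le_mul_right _ hrK)
    have h3 : r * r * (r * r) ≤ (10 * a) * (10 * a) := Nat.mul_le_mul h10 h10
    have h4 : (10 * a) * (10 * a) = 100 * a ^ 2 := by ring
    have h5 : 100 * (4608 * r) ^ 3 ≤ 100 * a ^ 2 := by
      rw [h1, ← h4]
      exact le_trans h2 h3
    exact Nat.le_of_mul_le_mul_left h5 (by norm_num)
  have h5 : ((4608 * r) ^ n) ^ 3 ≤ (a ^ (k - a)) ^ 3 := by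
    calc ((4608 * r) ^ n) ^ 3 = ((4608 * r) ^ 3) ^ n := by
          rw [← pow_mul, ← pow_mul, Nat.mul_comm n 3]
      _ ≤ (a ^ 2) ^ n := Nat.pow_le_pow_left hXa n
      _ = a ^ (2 * n) := by rw [← pow_mul]
      _ ≤ a ^ (3 * (k - a)) := Nat.pow_le_pow_right ha0 he
      _ = (a ^ (k - a)) ^ 3 := by rw [← pow_mul, Nat.mul_comm (k - a) 3]
  have h6 : (4608 * r) ^ n ≤ a ^ (k - a) := (Nat.pow_le_pow_iff_left (by norm_num)).mp h5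
  have h7 : a.factorial * a ^ (k - a) ≤ k.factorial :=
    Nat.factorial_mul_pow_sub_le_factorial hak
  have hL : (2 ^ n * (2 * s + 1) ^ n) ^ 2 * 2 ^ (7 * n) =
      ((2 * (2 * s + 1)) ^ 2 * 2 ^ 7) ^ n := by
    rw [← mul_pow, ← pow_mul, mul_comm n 2, pow_mul, pow_mul 2 7 n, ← mul_pow]
  calc (2 ^ n * (2 * s + 1) ^ n) ^ 2 * 2 ^ (7 * n)
      = ((2 * (2 * s + 1)) ^ 2 * 2 ^ 7) ^ n := hL
    _ ≤ (4608 * r) ^ n := Nat.pow_le_pow_left hB n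
    _ ≤ a ^ (k - a) := h6
    _ ≤ a.factorial * a ^ (k - a) := Nat.le_mul_of_pos_left _ (Nat.factorial_pos a)
    _ ≤ k.factorial := h7

end Vale.Agent.Lib.P160.H78
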